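import Vale.Agent.P313.H463.UD.Defs

/-!
Universal derandomization, module U2: the universal simulation is in `LF`.
-/

namespace Vale.Agent.P313.UD.U2

open Finset

variable {k : ℕ}

/-- The symbol function with one more (unused) argument. -/
theorem lf_sy {sy : Fn (k + 1)} (h : LF sy) :
    LF (fun x c => sy x (Fin.cons (c 0) (Fin.tail (Fin.tail c))) : Fn (k + 2)) := by
  have h2 := LF.comp (k := k + 2) (m := k + 1) (f := sy)
    (g := Fin.cons (fun _ b => b 0) (fun i => fun _ b => b i.succ.succ)) h (fun i => by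
      refine Fin.cases ?_ (fun j => ?_) i
      · simpa using LF.proj (k := k + 2) 0
      · simpa using LF.proj (k := k + 2) j.succ.succ)
  refine h2.congr (fun x b => ?_)
  congr 1
  funext i
  refine Fin.cases ?_ (fun j => ?_) i
  · simp
  · simp [Fin.tail]

theorem lf_dgt {W v j : Fn k} (hW : LF W) (hv : LF v) (hj : LF j) :
    LF (fun x a => dgt (W x a) (v x a) (j x a)) := by
  unfold dgt
  exact (LF.divPow hW hv hj).mod hW

theorem lf_uver {par : ℕ → Fn k} {v : Fn k} (hp : ∀ i, LF (par i)) (hv : LF v) :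
    LF (fun x a => uver (fun i => par i x a) (v x a)) := by
  unfold uver
  exact (LF.divPow (LF.const 3) (hp 4) (lf_dgt (hp 7) hv (LF.const 0))).mod (LF.const 3)

theorem lf_utab {par : ℕ → Fn k} {κ c : Fn k} (hp : ∀ i, LF (par i)) (hκ : LF κ) (hc : LF c) :
    LF (fun x a => utab (fun i => par i x a) (κ x a) (c x a)) := by
  unfold utab
  exact (LF.divPow (hp 6) (hp 5)
    ((hκ.mul ((LF.const 2).add ((LF.const 2).mul (hp 0)))).add hc)).mod (hp 6)

theorem lf_und {n : Fn k} {par : ℕ → Fn k} {κ v j : Fn k} (hn : LF n) (hp : ∀ i, LF (par i))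
    (hκ : LF κ) (hv : LF v) (hj : LF j) :
    LF (fun x a => und (n x a) (fun i => par i x a) (κ x a) (v x a) (j x a)) := by
  have c2 : LF (fun _ _ => 2 : Fn k) := LF.const 2
  have hj2 : LF (fun x a => j x a - 2) := hj.sub c2
  have hj3 : LF (fun x a => j x a - 2 - par 0 x a) := hj2.sub (hp 0)
  have hj4 : LF (fun x a => j x a - 2 - par 0 x a - par 0 x a) := hj3.sub (hp 0)
  have d1 : LF (fun x a => dgt (par 7 x a) (v x a) 1) := lf_dgt (hp 7) hv (LF.const 1)
  have dj : LF (fun x a => dgt (par 7 x a) (v x a) (j x a)) := lf_dgt (hp 7) hv hj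
  have djm : LF (fun x a => dgt (par 7 x a) (v x a) (j x a - par 0 x a)) :=
    lf_dgt (hp 7) hv (hj.sub (hp 0))
  have djp : LF (fun x a => dgt (par 7 x a) (v x a) (j x a + par 0 x a)) :=
    lf_dgt (hp 7) hv (hj.add (hp 0))
  unfold und
  refine LF.ite (LFP.eq hj (LF.const 0)) (lf_utab hp hκ (LF.const 0)) ?_
  refine LF.ite (LFP.eq hj (LF.const 1)) ?_ ?_
  · exact LF.dsel (lf_utab hp hκ (LF.const 1)) (d1.sub (LF.const 1)) d1 (LF.min d1.succ hn.succ)
  refine LF.ite (LFP.lt hj2 (hp 0)) ?_ ?_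
  · exact LF.dsel (lf_utab hp hκ ((LF.const 3).add (c2.mul hj2))) (dj.div (hp 1)) dj
      ((lf_utab hp hκ (c2.add (c2.mul hj2))).add ((hp 1).mul dj))
  refine LF.ite (LFP.lt hj3 (hp 0)) ?_ ?_
  · exact LF.dsel (lf_utab hp hκ ((LF.const 3).add (c2.mul hj3))) (djm.mod (hp 1))
      (lf_utab hp hκ (c2.add (c2.mul hj3))) (djp.mod (hp 1))
  refine LF.ite (LFP.lt hj4 (hp 0)) ?_ (LF.const 0)
  exact LF.dsel (lf_utab hp hκ ((LF.const 3).add (c2.mul hj4)))
    ((lf_utab hp hκ (c2.add (c2.mul hj4))).add ((hp 1).mul dj)) dj (dj.div (hp 1))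

theorem lf_ukey {sy : Fn (k + 1)} {par : ℕ → Fn k} {N v : Fn k} (hs : LF sy)
    (hp : ∀ i, LF (par i)) (hN : LF N) (hv : LF v) :
    LF (fun x a => ukey (fun p => sy x (Fin.cons p a)) (fun i => par i x a) (N x a)
      (v x a)) := by
  have h1 : LF (fun x a => sy x (Fin.cons (dgt (par 7 x a) (v x a) 1) a)) :=
    LF.subst hs (lf_dgt (hp 7) hv (LF.const 1))
  have h2 : LF (fun x b => dgt (par 7 x (Fin.tail b)) (v x (Fin.tail b))
      (2 + par 0 x (Fin.tail b) + b 0) *
      Min.min (par 1 x (Fin.tail b) ^ b 0) (N x (Fin.tail b) + 1) : Fn (k + 1)) :=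
    (lf_dgt (hp 7).weak hv.weak (((LF.const 2).add (hp 0).weak).add (LF.proj 0))).mul
      (LF.powMin (hp 1).weak (LF.proj 0) hN.weak)
  have h3 := LF.sum h2 (hp 0)
  unfold ukey
  refine ((lf_dgt (hp 7) hv (LF.const 0)).add ((hp 2).mul
    (h1.add ((LF.const 4).mul h3)))).congr (fun x a => ?_)
  simp only [Fin.tail_cons, Fin.cons_zero]

theorem lf_ustep {sy : Fn (k + 1)} {n : Fn k} {par : ℕ → Fn k} {N v : Fn k} (hs : LF sy)
    (hn : LF n) (hp : ∀ i, LF (par i)) (hN : LF N) (hv : LF v) :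
    LF (fun x a => ustep (fun p => sy x (Fin.cons p a)) (n x a) (fun i => par i x a) (N x a)
      (v x a)) := by
  classical
  have hκ := lf_ukey hs hp hN hv
  have hu : LF (fun x a => und' (fun i => par i x a)) := by
    unfold und'
    exact (LF.const 2).add ((LF.const 3).mul (hp 0))
  have h1 : LF (fun x b => und (n x (Fin.tail b)) (fun i => par i x (Fin.tail b))
      (ukey (fun p => sy x (Fin.cons p (Fin.tail b))) (fun i => par i x (Fin.tail b))
        (N x (Fin.tail b)) (v x (Fin.tail b))) (v x (Fin.tail b)) (b 0) : Fn (k + 1)) :=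
    lf_und (par := fun i x b => par i x (Fin.tail b)) hn.weak (fun i => (hp i).weak) hκ.weak
      hv.weak (LF.proj 0)
  have h2 : LFP (fun x a => ∀ j < und' (fun i => par i x a), und (n x a) (fun i => par i x a)
      (ukey (fun p => sy x (Fin.cons p a)) (fun i => par i x a) (N x a) (v x a)) (v x a) j <
        par 7 x a) := by
    refine (LFP.all (LFP.lt h1 (hp 7).weak) hu).congr (fun x a => ?_)
    simp only [Fin.tail_cons, Fin.cons_zero]
  have h3 := LF.sum (h1.mul (LF.powMin (hp 7).weak (LF.proj 0) hN.weak)) hu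
  unfold ustep
  refine LF.ite ((LFP.le hv hN).and (LFP.eq (lf_uver hp hv) (LF.const 0)).not) hv ?_
  refine LF.ite ((LFP.le hv hN).and h2) ?_ hN.succ
  refine h3.congr (fun x a => ?_)
  simp only [Fin.tail_cons, Fin.cons_zero]

/-- The bound for the values which are used. -/
theorem ustep_le (sy : ℕ → ℕ) (n : ℕ) (par : ℕ → ℕ) (N v : ℕ) :
    ustep sy n par N v ≤ N + 1 + (2 + 3 * par 0) * (par 7 * (N + 1)) := by
  unfold ustep
  split_ifs with h1 h2
  · omega
  · refine le_trans ?_ (Nat.le_add_left _ _)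
    calc ∑ j ∈ range (und' par), und n par (ukey sy par N v) v j * Min.min (par 7 ^ j) (N + 1)
        ≤ ∑ j ∈ range (und' par), par 7 * (N + 1) := by
          refine Finset.sum_le_sum (fun j hj => ?_)
          exact Nat.mul_le_mul (h2.2 j (mem_range.1 hj)).le (min_le_right _ _)
      _ = (2 + 3 * par 0) * (par 7 * (N + 1)) := by
          rw [Finset.sum_const, card_range, smul_eq_mul]; rfl
  · omega

theorem lf_iter {sy : Fn (k + 1)} {n : Fn k} {par : ℕ → Fn k} {N : Fn k} (hs : LF sy)
    (hn : LF n) (hp : ∀ i, LF (par i)) (hN : LF N) :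
    LF (fun x a => (ustep (fun p => sy x (Fin.cons p a)) (n x a) (fun i => par i x a)
      (N x a))^[N x a + 1] (par 3 x a)) := by
  have h1 : LF (fun x b => ustep (fun p => sy x (Fin.cons p (Fin.tail b))) (n x (Fin.tail b))
      (fun i => par i x (Fin.tail b)) (N x (Fin.tail b)) (b 0) : Fn (k + 1)) := by
    refine (lf_ustep (sy := fun x c => sy x (Fin.cons (c 0) (Fin.tail (Fin.tail c))))
      (par := fun i x b => par i x (Fin.tail b)) (lf_sy hs) hn.weak
      (fun i => (hp i).weak) hN.weak (LF.proj 0)).congr (fun x b => ?_)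
    simp only [Fin.tail_cons, Fin.cons_zero]
  have h2 := LF.iterate (k := k) h1 (hp 3) hN.succ
    (fun x a => par 3 x a + (N x a + 1 + (2 + 3 * par 0 x a) * (par 7 x a * (N x a + 1))))
    ((hp 3).add (hN.succ.add (((LF.const 2).add ((LF.const 3).mul (hp 0))).mul
      ((hp 7).mul hN.succ)))).pb
    (fun x a i _ => by
      cases i with
      | zero => simp only [Function.iterate_zero, id_eq]; omega
      | succ i =>
        rw [Function.iterate_succ_apply']
        simp only [Fin.tail_cons, Fin.cons_zero]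
        exact (ustep_le _ _ (fun i => par i x a) _ _).trans (Nat.le_add_left _ _))
  refine h2.congr (fun x a => ?_)
  simp only [Fin.tail_cons, Fin.cons_zero]

theorem usimLF : UsimLF := by
  classical
  intro k sy n N par hs hn hN hp
  have hi := lf_iter hs hn hp hN
  have hu : LF (fun x a => und' (fun i => par i x a)) := by
    unfold und'
    exact (LF.const 2).add ((LF.const 3).mul (hp 0))
  have h1 : LFP (fun x a => par 7 x a ^ und' (fun i => par i x a) ≤ N x a) :=
    (LFP.le (LF.powMin (hp 7) hu hN) hN).congr (fun x a => by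
      rw [min_le_iff]; omega)
  unfold usim
  exact LF.ite (h1.and ((LFP.lt (hp 3) (hp 7)).and (LFP.le hi hN))) (lf_uver hp hi) (LF.const 0)

end Vale.Agent.P313.UD.U2
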