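import Vale.Agent.P313.H463.UD.Defs

/-!
Universal derandomization, module V: words which describe a chain.
-/

namespace Vale.Agent.P313.UD.V

open Finset

variable {k : ℕ}

theorem length_word (B : ℕ) (val : ℕ → ℕ) : (word B val).length = wlen B := by
  simp [word]

theorem syc_inSym_word (B : ℕ) (val : ℕ → ℕ) (p : ℕ) :
    syc (inSym (word B val) p) = vsy B val p := by
  unfold inSym vsy
  by_cases h0 : p = 0
  · rw [if_pos h0, if_pos h0]; rfl
  · rw [if_neg h0, if_neg h0]
    by_cases h1 : p - 1 < wlen B
    · rw [if_pos h1]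
      have h2 : (word B val)[p - 1]? = some (wbit B val (p - 1)) := by
        unfold word
        rw [List.getElem?_map, List.getElem?_range h1]
        rfl
      rw [h2]
      cases h3 : wbit B val (p - 1)
      · simp [syc]
      · simp [syc]
    · rw [if_neg h1]
      have h2 : (word B val)[p - 1]? = none := by
        rw [List.getElem?_eq_none_iff, length_word]; omega
      rw [h2]
      rfl

theorem lfp_wbit {B p : Fn k} {val : Fn (k + 1)} (hB : LF B) (hp : LF p) (hv : LF val) :
    LFP (fun x a => wbit (B x a) (fun r => val x (Fin.cons r a)) (p x a) = true) := by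
  have h1 : LF (fun x a => (p x a - (B x a + 1)) / B x a) :=
    (hp.sub hB.succ).div hB
  have h2 : LF (fun x a => (p x a - (B x a + 1)) % B x a) :=
    (hp.sub hB.succ).mod hB
  have h3 := LF.subst hv h1
  refine ((LFP.lt hp hB).or ((LFP.le hB.succ hp).and (LFP.lt h2 h3))).congr (fun x a => ?_)
  simp only [wbit, decide_eq_true_eq]

theorem lf_wlen {B : Fn k} (hB : LF B) : LF (fun x a => wlen (B x a)) := by
  unfold wlen
  exact hB.succ.add (((LF.const 5).add ((LF.const 2).mul hB)).mul hB)

theorem lf_vsy {B p : Fn k} {val : Fn (k + 1)} (hB : LF B) (hp : LF p) (hv : LF val) :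
    LF (fun x a => vsy (B x a) (fun r => val x (Fin.cons r a)) (p x a)) := by
  unfold vsy
  exact LF.ite (LFP.eq hp (LF.const 0)) (LF.const 0)
    (LF.ite (LFP.lt (hp.sub (LF.const 1)) (lf_wlen hB))
      (LF.ite (lfp_wbit hB (hp.sub (LF.const 1)) hv) (LF.const 3) (LF.const 2)) (LF.const 1))

/-- Tests of input symbols. -/
def tl : InSym → Bool
  | InSym.lmark => true
  | _ => false

/-- Tests of input symbols. -/
def tr : InSym → Bool
  | InSym.rmark => true
  | _ => false

/-- Tests of input symbols. -/
def tf : InSym → Bool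
  | InSym.bit false => true
  | _ => false

theorem lf_syc {f : Fn k} (hf : LF f) : LF (fun x a => syc (inSym x (f x a))) := by
  classical
  refine (LF.ite (LFP.symT tl hf) (LF.const 0) (LF.ite (LFP.symT tr hf) (LF.const 1)
    (LF.ite (LFP.symT tf hf) (LF.const 2) (LF.const 3)))).congr (fun x a => ?_)
  generalize inSym x (f x a) = s
  rcases s with _ | _ | b
  · simp [tl, tr, tf, syc]
  · simp [tl, tr, tf, syc]
  · cases b <;> simp [tl, tr, tf, syc]

theorem wordSpec : WordSpec :=
  ⟨length_word, syc_inSym_word, fun _ _ _ _ hB hp hv => lf_vsy hB hp hv, fun _ _ hf => lf_syc hf⟩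

end Vale.Agent.P313.UD.V
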